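import Mathlib

/-! P253Z, block EXH: smoothing of Lipschitz functions. -/

open scoped Manifold ContDiff Topology Convolution
open MeasureTheory Set Metric Filter ContinuousLinearMap

noncomputable section

namespace Vale.Agent.P253Z.Exh

variable {E : Type*} [NormedAddCommGroup E] [NormedSpace ℝ E] [FiniteDimensional ℝ E]

theorem mollify {F N : E → ℝ} {z : E} {r δ : ℝ} (hr : 0 < r) (hδ : 0 < δ)
    (hc : ContinuousOn F (closedBall z (2 * r)))
    (hL : ∀ a ∈ ball z (2 * r), ∀ b ∈ ball z (2 * r), |F a - F b| ≤ N (b - a)) :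
    ∃ G : E → ℝ, ContDiff ℝ ∞ G ∧ (∀ a ∈ ball z r, |G a - F a| ≤ δ) ∧
      ∀ a ∈ ball z r, ∀ b ∈ ball z r, |G a - G b| ≤ N (b - a) := by
  borelize E
  have : ProperSpace E := FiniteDimensional.proper_real E
  obtain ⟨ρ, hρ, hu⟩ := Metric.uniformContinuousOn_iff_le.1
    ((isCompact_closedBall z (2 * r)).uniformContinuousOn_of_continuous hc) δ hδ
  let μ : Measure E := .addHaar
  set g := (closedBall z (2 * r)).indicator F with hgF
  have hg : Integrable g μ := (integrable_indicator_iff measurableSet_closedBall).2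
    (hc.integrableOn_compact (isCompact_closedBall _ _))
  let φ : ContDiffBump (0 : E) :=
    ⟨min ρ r / 2, min ρ r, half_pos (lt_min hρ hr), half_lt_self (lt_min hρ hr)⟩
  have hin : ∀ a ∈ ball z r, ∀ x ∈ ball a (min ρ r), x ∈ ball z (2 * r) := fun a ha x hx => by
    have h1 := dist_triangle x a z
    have h2 := min_le_right ρ r
    rw [mem_ball] at *
    linarith
  have hin' : ∀ a ∈ ball z r, a ∈ ball z (2 * r) := fun a ha =>
    hin a ha a (mem_ball_self (lt_min hρ hr))
  have hv : ∀ x ∈ ball z (2 * r), g x = F x := fun x hx =>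
    indicator_of_mem (ball_subset_closedBall hx) F
  refine ⟨φ.normed μ ⋆[lsmul ℝ ℝ, μ] g, φ.hasCompactSupport_normed.contDiff_convolution_left _
    φ.contDiff_normed hg.locallyIntegrable, fun a ha => ?_, fun a ha b hb => ?_⟩
  · have h1 := φ.dist_normed_convolution_le hg.aestronglyMeasurable (x₀ := a) (ε := δ)
      fun x hx => by
        rw [hv x (hin a ha x hx), hv a (hin' a ha)]
        exact hu x (ball_subset_closedBall (hin a ha x hx)) a (ball_subset_closedBall (hin' a ha))
          ((mem_ball.1 hx).le.trans (min_le_left _ _))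
    rwa [hv a (hin' a ha)] at h1
  · have h1 := dist_convolution_le (z₀ := 0) (x₀ := a) (g := fun x => g x - g (x + (b - a)))
      ((abs_nonneg _).trans (hL a (hin' a ha) b (hin' b hb))) φ.support_normed_eq.le
      φ.nonneg_normed φ.integral_normed (hg.sub (hg.comp_add_right _)).aestronglyMeasurable
      fun x hx => by
        have h2 : x + (b - a) ∈ ball z (2 * r) := hin b hb _ (by
          rw [mem_ball, dist_eq_norm] at hx ⊢
          rwa [show x + (b - a) - b = x - a by abel])
        have h3 := hL x (hin a ha x hx) _ h2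
        rw [add_sub_cancel_left] at h3
        rwa [dist_zero_right, hv x (hin a ha x hx), hv _ h2]
    have h2 := (φ.hasCompactSupport_normed (μ := μ)).convolutionExists_left (lsmul ℝ ℝ)
      φ.continuous_normed
      hg.locallyIntegrable
    rw [dist_zero_right, convolution_def] at h1
    rw [convolution_def, convolution_def, ← integral_sub (h2 a) (h2 b)]
    simpa only [lsmul_apply, smul_eq_mul, mul_sub, Real.norm_eq_abs,
      show ∀ t, a - t + (b - a) = b - t from fun t => by abel] using h1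

variable {M : Type*} [MetricSpace M]

/-- the Lipschitz bound at the point `x` -/
def PL (f : M → ℝ) (x : M) (K : ℝ) : Prop := ∀ᶠ y in 𝓝 x, |f y - f x| ≤ K * dist y x

theorem glue [ChartedSpace E M] [IsManifold 𝓘(ℝ, E) ∞ M] [SigmaCompactSpace M] {f : M → ℝ} {K : ℝ}
    (h : ∀ x : M, ∃ U, IsOpen U ∧ x ∈ U ∧
      (∀ θ : M → ℝ, ContMDiff 𝓘(ℝ, E) 𝓘(ℝ) ∞ θ → ∃ L, 0 ≤ L ∧ ∀ y ∈ U, PL θ y L) ∧
      ∀ δ > 0, ∃ g : M → ℝ, ContMDiffOn 𝓘(ℝ, E) 𝓘(ℝ) ∞ g U ∧ ∀ y ∈ U, |g y - f y| ≤ δ ∧ PL g y K) :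
    ∃ η : M → ℝ, ContMDiff 𝓘(ℝ, E) 𝓘(ℝ) ∞ η ∧ ∀ y, |η y - f y| ≤ 1 ∧ PL η y (K + 1) := by
  choose U hUo hUx hθ hg using h
  obtain ⟨ρ, hρ⟩ := SmoothPartitionOfUnity.exists_isSubordinate 𝓘(ℝ, E) isClosed_univ U hUo
    fun x _ => mem_iUnion.2 ⟨x, hUx x⟩
  choose L hL0 hL using fun i => hθ i (ρ i) (ρ i).contMDiff
  have hc : {i | (Function.support (ρ i)).Nonempty}.Countable :=
    countable_coe_iff.1 (countable_univ_iff.1
      ((ρ.locallyFinite.comp_injective Subtype.val_injective).countable_univ fun i => i.2))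
  obtain ⟨ε, hε, hs⟩ := hc.exists_pos_forall_sum_le one_pos
  choose g hg1 hg2 using fun i => hg i (min 1 (ε i / (L i + 1)))
    (lt_min one_pos (div_pos (hε i) (by linarith [hL0 i])))
  refine ⟨fun x => ∑ᶠ i, ρ i x • g i x, hρ.contMDiff_finsum_smul hUo hg1, fun x => ⟨?_, ?_⟩⟩
  · exact ρ.finsum_smul_mem_convex (t := closedBall (f x) 1) (mem_univ x)
      (fun i hi => (hg2 i x (hρ i (subset_tsupport _ hi))).1.trans (min_le_left _ _))
      (convex_closedBall _ _)
  have hU : ∀ i ∈ ρ.fintsupport x, x ∈ U i := fun i hi => hρ i ((ρ.mem_fintsupport_iff x i).1 hi)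
  have e : ∀ y, ρ.finsupport y ⊆ ρ.fintsupport x →
      ∑ᶠ i, ρ i y • g i y = ∑ i ∈ ρ.fintsupport x, ρ i y * g i y := fun y hy =>
    finsum_eq_sum_of_support_subset _ fun i hi => hy ((ρ.mem_finsupport y).2 (left_ne_zero_of_smul hi))
  have h0 := ρ.finsupport_subset_fintsupport x
  have h1 := hs (ρ.fintsupport x) fun i hi =>
    closure_nonempty_iff.1 ⟨x, (ρ.mem_fintsupport_iff x i).1 hi⟩
  filter_upwards [ρ.eventually_finsupport_subset x,
    (ρ.fintsupport x).eventually_all.2 fun i hi => (hg2 i x (hU i hi)).2,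
    (ρ.fintsupport x).eventually_all.2 fun i hi => hL i x (hU i hi)] with y h2 h3 h4
  have h5 := ρ.sum_finsupport' y (mem_univ y) h2
  have h6 := ρ.sum_finsupport' x (mem_univ x) h0
  have h7 : ∑ i ∈ ρ.fintsupport x, ρ i y * g i y - ∑ i ∈ ρ.fintsupport x, ρ i x * g i x =
      ∑ i ∈ ρ.fintsupport x, (ρ i y * (g i y - g i x) + (ρ i y - ρ i x) * (g i x - f x)) := by
    have : ∑ i ∈ ρ.fintsupport x, (ρ i y - ρ i x) * f x = 0 := by
      rw [← Finset.sum_mul, Finset.sum_sub_distrib, h5, h6, sub_self, zero_mul]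
    rw [← Finset.sum_sub_distrib, ← sub_zero (∑ i ∈ _, (_ - _)), ← this, ← Finset.sum_sub_distrib]
    exact Finset.sum_congr rfl fun i _ => by ring
  rw [e y h2, e x h0, h7]
  calc _ ≤ ∑ i ∈ ρ.fintsupport x, (ρ i y * (K * dist y x) + ε i * dist y x) := by
        refine (Finset.abs_sum_le_sum_abs _ _).trans (Finset.sum_le_sum fun i hi => ?_)
        refine (abs_add_le _ _).trans (add_le_add ?_ ?_)
        · rw [abs_mul, abs_of_nonneg (ρ.nonneg i y)]
          exact mul_le_mul_of_nonneg_left (h3 i hi) (ρ.nonneg i y)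
        · have h8 := hL0 i
          have h9 := hε i
          rw [abs_mul]
          calc _ ≤ (L i + 1) * dist y x * (ε i / (L i + 1)) :=
                mul_le_mul ((h4 i hi).trans (by gcongr; linarith))
                  ((hg2 i x (hU i hi)).1.trans (min_le_right _ _)) (abs_nonneg _) (by positivity)
            _ = _ := by field_simp
    _ ≤ _ := by
        rw [Finset.sum_add_distrib, ← Finset.sum_mul, ← Finset.sum_mul, h5, one_mul, add_mul]
        gcongr

end Vale.Agent.P253Z.Exh
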